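import Vale.Agent.Lib.P183.Glue

namespace Vale.Agent.Lib.P183

def L6_4Q : PCert where
  N := 6
  gens := [3626814353739427006644225, 4835795512460360223490050, 6044702885893874231869440, 4835795512741848084905985]
  labs := [6044702885893874231869440, 4835777065997770080387072, 1208925819614633469739008, 0]
  bms := [1, 3, 25, 63]
  stabW := [[3, 0]]
  roots := [(1, [0], 1), (2, [1], 3), (3, [1, 0], 2)]
  joinT := [0, 1, 2, 3, 0, 0, 0, 0, 1, 1, 3, 3, 0, 0, 0, 0, 2, 3, 2, 3, 0, 0, 0, 0, 3, 3, 3, 3, 0, 0, 0, 0, 0, 0, 0, 0, 0, 0, 0, 0, 0, 0, 0, 0, 0, 0, 0, 0, 0, 0, 0, 0, 0, 0, 0, 0, 0, 0, 0, 0, 0, 0, 0, 0]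
  mvT := 928464474341398712340709376
  frT := 309489732187827938369994752

def L6_4Y : PCert where
  N := 2
  gens := [1, 65536, 65536]
  labs := [65536, 0]
  bms := [1, 3]
  stabW := []
  roots := [(1, [0], 1)]
  joinT := [0, 1, 0, 0, 0, 0, 0, 0, 1, 1, 0, 0, 0, 0, 0, 0, 0, 0, 0, 0, 0, 0, 0, 0, 0, 0, 0, 0, 0, 0, 0, 0, 0, 0, 0, 0, 0, 0, 0, 0, 0, 0, 0, 0, 0, 0, 0, 0, 0, 0, 0, 0, 0, 0, 0, 0, 0, 0, 0, 0, 0, 0, 0, 0]
  mvT := 16777216
  frT := 0

def L6_4c : GCert where
  N := 12
  gens := [862038972493833357512225293921924914112424079628697601, 957825789670696944108499298252347438311352863220301826, 1053605299562381328232603147180457479890407323326283776, 766256539531975138507226744573295749459510942885019651]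
  labs := [1053605299562381328232603147180457479890407323326283776, 862036049445957205272981483033699515188726964691206144, 574697519882411181784492041253921287550745920422346752, 574694596879135839403537198290259236084661129966518272, 1461523938416383815747764831897930556928478478336, 0]
  bms := [1, 5, 33, 43, 2289, 4095]
  mvT := 98368184364285759109625314016667723430034566913063911424
  rL := 862036049445957205272981483033699515188726964691206144
  rB := 5
  Q := L6_4Q
  piT := 383131192769262060928650833675384226021572509920460800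
  secT := 9671517238507384151801856
  hiMap := [2, 3, 4, 5]
  Y := L6_4Y
  iotaT := 131072
  kappaT := 4294967296
  wordsY := [[1, 0, 0], [2], [0, 0]]
  loMap := [0, 1]

/-- The lattice number 8 of the list, from an algebra on 12 points. -/
theorem repL6_4 : RepMat (szOf 8) (matOf (codeOf 8)) :=
  repG_of_check 8 L6_4c (by decide +kernel) (by decide +kernel)

end Vale.Agent.Lib.P183
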